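import Mathlib

/-!
A group algebra element with one dominant coefficient is not a zero divisor.
-/

namespace Vale.Agent.Results.P201.DominantCoefficient

/-- Over a field with a real absolute value and a torsion-free group, an element one of whose
nonzero coefficients has absolute value at least the sum of those of all others is not a left
zero divisor. -/
theorem result {K G : Type*} [Field K] [Group G] (htf : ∀ g : G, IsOfFinOrder g → g = 1)
    (v : AbsoluteValue K ℝ) (a b : MonoidAlgebra K G) (g₀ : G) [DecidableEq G]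
    (hg₀ : a.coeff g₀ ≠ 0) (hdom : ∑ g ∈ a.coeff.support.erase g₀, v (a.coeff g) ≤ v (a.coeff g₀)) (hab : a * b = 0) :
    b = 0 := by
  classical
  by_contra hb
  obtain ⟨x₀, hx₀, hmax⟩ := b.coeff.support.exists_max_image (fun x => v (b.coeff x))
    (Finsupp.support_nonempty_iff.mpr fun h => hb (MonoidAlgebra.coeff_eq_zero.mp h))
  set M := v (b.coeff x₀)
  have hM : 0 < M := v.pos (Finsupp.mem_support_iff.mp hx₀)
  have hle : ∀ x, v (b.coeff x) ≤ M := fun x => by
    by_cases hx : x ∈ b.coeff.support
    · exact hmax x hx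
    · rw [Finsupp.notMem_support_iff.mp hx, map_zero]; exact hM.le
  have hg₀s : g₀ ∈ a.coeff.support := Finsupp.mem_support_iff.mpr hg₀
  have heq : ∀ x, v (b.coeff x) = M → ∀ g ∈ a.coeff.support.erase g₀, v (b.coeff (g⁻¹ * (g₀ * x))) = M := by
    intro x hx g hg
    have h1 : ∑ h ∈ a.coeff.support, a.coeff h * b.coeff (h⁻¹ * (g₀ * x)) = 0 := by
      have := congrArg (fun z : MonoidAlgebra K G => z.coeff (g₀ * x)) hab
      simpa [MonoidAlgebra.coeff_mul_apply_left, Finsupp.sum] using this
    rw [← Finset.add_sum_erase _ _ hg₀s, inv_mul_cancel_left, add_eq_zero_iff_eq_neg] at h1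
    have h2 : v (a.coeff g₀) * M ≤ ∑ h ∈ a.coeff.support.erase g₀, v (a.coeff h) * v (b.coeff (h⁻¹ * (g₀ * x))) := by
      rw [← hx, ← map_mul, h1, v.map_neg]
      refine (v.sum_le _ _).trans (le_of_eq ?_)
      simp [map_mul]
    by_contra hne
    have hlt : v (b.coeff (g⁻¹ * (g₀ * x))) < M := lt_of_le_of_ne (hle _) hne
    have h3 : ∑ h ∈ a.coeff.support.erase g₀, v (a.coeff h) * v (b.coeff (h⁻¹ * (g₀ * x))) <
        ∑ h ∈ a.coeff.support.erase g₀, v (a.coeff h) * M :=
      Finset.sum_lt_sum (fun h _ => mul_le_mul_of_nonneg_left (hle _) (v.nonneg _))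
        ⟨g, hg, mul_lt_mul_of_pos_left hlt
          (v.pos (Finsupp.mem_support_iff.mp (Finset.mem_of_mem_erase hg)))⟩
    rw [← Finset.sum_mul] at h3
    have := mul_le_mul_of_nonneg_right hdom hM.le
    linarith
  rcases (a.coeff.support.erase g₀).eq_empty_or_nonempty with he | ⟨g, hg⟩
  · have h1 : ∑ h ∈ a.coeff.support, a.coeff h * b.coeff (h⁻¹ * (g₀ * x₀)) = 0 := by
      have := congrArg (fun z : MonoidAlgebra K G => z.coeff (g₀ * x₀)) hab
      simpa [MonoidAlgebra.coeff_mul_apply_left, Finsupp.sum] using this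
    rw [← Finset.add_sum_erase _ _ hg₀s, he, Finset.sum_empty, add_zero, inv_mul_cancel_left,
      mul_eq_zero] at h1
    exact h1.elim hg₀ (Finsupp.mem_support_iff.mp hx₀)
  · set u := g⁻¹ * g₀
    have horb : ∀ n : ℕ, v (b.coeff (u ^ n * x₀)) = M := fun n => by
      induction n with
      | zero => simp [M]
      | succ n ih => rw [pow_succ', mul_assoc u, mul_assoc g⁻¹]; exact heq _ ih g hg
    have hu : u ≠ 1 := fun h => (Finset.ne_of_mem_erase hg) (inv_mul_eq_one.mp h)
    have hinj : Function.Injective fun n : ℕ => u ^ n * x₀ := fun m n h =>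
      (injective_pow_iff_not_isOfFinOrder.mpr fun hf => hu (htf u hf)) (mul_right_cancel h)
    refine (Set.infinite_range_of_injective hinj) ((b.coeff.support : Finset G).finite_toSet.subset ?_)
    rintro _ ⟨n, rfl⟩
    rw [Finset.mem_coe, Finsupp.mem_support_iff]
    intro h0
    have := horb n
    rw [h0, map_zero] at this
    linarith

end Vale.Agent.Results.P201.DominantCoefficient
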